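import Mathlib

namespace Vale.Agent.Lib.P262

open Finset

set_option linter.unusedSectionVars false

variable {E : Type*} [NormedAddCommGroup E] [InnerProductSpace ℝ E]

/-- `Forced T s L`: starting from the point `s`, every choice of signs for the list `L`
has an initial segment (possibly empty) whose signed sum, added to `s`,
has squared norm at least `T`. -/
def Forced (T : ℝ) : E → List E → Prop
  | s, [] => T ≤ ‖s‖ ^ 2
  | s, v :: L => T ≤ ‖s‖ ^ 2 ∨ (Forced T (s + v) L ∧ Forced T (s - v) L)

theorem forced_of_le {T : ℝ} {s : E} (L : List E) (h : T ≤ ‖s‖ ^ 2) : Forced T s L := by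
  cases L with
  | nil => exact h
  | cons v L => exact Or.inl h

theorem forced_neg {T : ℝ} : ∀ (L : List E) (s : E), Forced T s L → Forced T (-s) L := by
  intro L
  induction L with
  | nil =>
    intro s h
    simpa [Forced] using h
  | cons v L ih =>
    intro s h
    rcases h with h | ⟨h1, h2⟩
    · exact Or.inl (by simpa using h)
    · refine Or.inr ⟨?_, ?_⟩
      · have := ih _ h2
        rwa [neg_sub, sub_eq_add_neg, add_comm] at this
      · have := ih _ h1
        rwa [neg_add, ← sub_eq_add_neg] at this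

theorem forced_lift {T : ℝ} (u : E) : ∀ (L : List E) (s : E),
    (∀ v ∈ L, inner ℝ u v = 0) → inner ℝ u s = 0 → Forced T s L →
    Forced (T + ‖u‖ ^ 2) (u + s) L := by
  intro L
  induction L with
  | nil =>
    intro s _ hus h
    have h' : T ≤ ‖s‖ ^ 2 := h
    show T + ‖u‖ ^ 2 ≤ ‖u + s‖ ^ 2
    rw [norm_add_sq_real, hus]
    linarith
  | cons v L ih =>
    intro s hL hus h
    have huv : inner ℝ u v = 0 := hL v (List.mem_cons_self)
    have hL' : ∀ w ∈ L, inner ℝ u w = 0 := fun w hw => hL w (List.mem_cons_of_mem _ hw)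
    rcases h with h | ⟨h1, h2⟩
    · refine Or.inl ?_
      rw [norm_add_sq_real, hus]
      linarith
    · refine Or.inr ⟨?_, ?_⟩
      · rw [add_assoc]
        exact ih _ hL' (by rw [inner_add_right, hus, huv, add_zero]) h1
      · rw [add_sub_assoc]
        exact ih _ hL' (by rw [inner_sub_right, hus, huv, sub_zero]) h2

theorem forced_spec {T : ℝ} : ∀ (L : List E) (s : E), Forced T s L →
    ∀ ε : ℕ → ℝ, (∀ i, ε i = 1 ∨ ε i = -1) →
    ∃ k, k ≤ L.length ∧ T ≤ ‖s + ∑ i ∈ range k, ε i • L.getD i 0‖ ^ 2 := by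
  intro L
  induction L with
  | nil =>
    intro s h ε _
    exact ⟨0, le_rfl, by simpa [Forced] using h⟩
  | cons v L ih =>
    intro s h ε hε
    rcases h with h | ⟨h1, h2⟩
    · exact ⟨0, Nat.zero_le _, by simpa using h⟩
    · have hε' : ∀ i, ε (i + 1) = 1 ∨ ε (i + 1) = -1 := fun i => hε (i + 1)
      rcases hε 0 with h0 | h0
      · obtain ⟨k, hk, hT⟩ := ih _ h1 (fun i => ε (i + 1)) hε'
        refine ⟨k + 1, by simpa using hk, ?_⟩
        rw [Finset.sum_range_succ']
        simp only [List.getD_cons_succ, List.getD_cons_zero, h0, one_smul]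
        have : s + (∑ i ∈ range k, ε (i + 1) • L.getD i 0 + v)
            = s + v + ∑ i ∈ range k, ε (i + 1) • L.getD i 0 := by abel
        rw [this]
        exact hT
      · obtain ⟨k, hk, hT⟩ := ih _ h2 (fun i => ε (i + 1)) hε'
        refine ⟨k + 1, by simpa using hk, ?_⟩
        rw [Finset.sum_range_succ']
        simp only [List.getD_cons_succ, List.getD_cons_zero, h0, neg_smul, one_smul]
        have : s + (∑ i ∈ range k, ε (i + 1) • L.getD i 0 + -v)
            = s - v + ∑ i ∈ range k, ε (i + 1) • L.getD i 0 := by abel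
        rw [this]
        exact hT

/-- `Q T L`: every point `u` orthogonal to all members of `L` is forced up to `T + ‖u‖ ^ 2`. -/
def Q (T : ℝ) (L : List E) : Prop :=
  ∀ u : E, (∀ v ∈ L, inner ℝ u v = 0) → Forced (T + ‖u‖ ^ 2) u L

theorem Q_of_forced {T : ℝ} {L : List E} (h : Forced T 0 L) : Q T L := by
  intro u hu
  have := forced_lift u L 0 hu (inner_zero_right _) h
  simpa using this

theorem Q_cons {T : ℝ} {L : List E} {w : E} (hQ : Q T L) (hw1 : ‖w‖ = 1)
    (hw : ∀ v ∈ L, inner ℝ w v = 0) : Q (T + 1) (w :: L) := by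
  intro u hu
  have huw : inner ℝ u w = 0 := hu w (List.mem_cons_self)
  have hu' : ∀ v ∈ L, inner ℝ u v = 0 := fun v hv => hu v (List.mem_cons_of_mem _ hv)
  refine Or.inr ⟨?_, ?_⟩
  · have h := hQ (u + w) (fun v hv => by rw [inner_add_left, hu' v hv, hw v hv, add_zero])
    have e : T + ‖u + w‖ ^ 2 = T + 1 + ‖u‖ ^ 2 := by
      rw [norm_add_sq_real, huw, hw1]; ring
    rwa [e] at h
  · have h := hQ (u - w) (fun v hv => by rw [inner_sub_left, hu' v hv, hw v hv, sub_zero])
    have e : T + ‖u - w‖ ^ 2 = T + 1 + ‖u‖ ^ 2 := by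
      rw [norm_sub_sq_real, huw, hw1]; ring
    rwa [e] at h

theorem Q_append {T : ℝ} {L : List E} (hQ : Q T L) : ∀ l : List E,
    (∀ w ∈ l, ‖w‖ = 1) → l.Pairwise (fun x y => inner ℝ x y = 0) →
    (∀ w ∈ l, ∀ v ∈ L, inner ℝ w v = 0) → Q (T + l.length) (l ++ L) := by
  intro l
  induction l with
  | nil =>
    intro _ _ _
    simpa using hQ
  | cons w l ih =>
    intro h1 hp hL
    rw [List.pairwise_cons] at hp
    have hQ' := ih (fun x hx => h1 x (List.mem_cons_of_mem _ hx)) hp.2
      (fun x hx => hL x (List.mem_cons_of_mem _ hx))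
    have := Q_cons hQ' (h1 w (List.mem_cons_self)) (fun v hv => by
      rcases List.mem_append.mp hv with hv | hv
      · exact hp.1 v hv
      · exact hL w (List.mem_cons_self) v hv)
    have e : T + ((w :: l).length : ℝ) = T + (l.length : ℝ) + 1 := by
      simp; ring
    rw [e]
    exact this

end Vale.Agent.Lib.P262
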