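import Mathlib
import Vale.Agent.Lib.P262.Forced

namespace Vale.Agent.Lib.P262

open Finset

variable {E : Type*} [NormedAddCommGroup E] [InnerProductSpace ℝ E]

theorem inner_comb {a b : E} (ha : ‖a‖ = 1) (hb : ‖b‖ = 1) (hab : inner ℝ a b = 0)
    (α β α' β' : ℝ) :
    inner ℝ (α • a + β • b) (α' • a + β' • b) = α * α' + β * β' := by
  have hba : inner ℝ b a = 0 := by rw [real_inner_comm]; exact hab
  simp only [inner_add_left, inner_add_right, inner_smul_left, inner_smul_right,
    real_inner_self_eq_norm_sq, ha, hb, hab, hba]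
  simp
  ring

theorem norm_sq_comb {a b : E} (ha : ‖a‖ = 1) (hb : ‖b‖ = 1) (hab : inner ℝ a b = 0)
    (α β : ℝ) : ‖α • a + β • b‖ ^ 2 = α ^ 2 + β ^ 2 := by
  rw [← real_inner_self_eq_norm_sq, inner_comb ha hb hab]
  ring

/-- A unit vector of the plane with prescribed inner product `c` against `(α, β)`. -/
theorem exists_unit_inner (α β c : ℝ) (h1 : 1 ≤ α ^ 2 + β ^ 2) (hc0 : 0 ≤ c) (hc : c ≤ 1 / 2) :
    ∃ α' β' : ℝ, α' ^ 2 + β' ^ 2 = 1 ∧ α * α' + β * β' = c := by
  set r2 := α ^ 2 + β ^ 2 with hr2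
  have hr2pos : 0 < r2 := by linarith
  have hcc : c ^ 2 ≤ r2 := by nlinarith
  set w := Real.sqrt (r2 - c ^ 2) with hw
  have hw2 : w ^ 2 = r2 - c ^ 2 := Real.sq_sqrt (by linarith)
  refine ⟨(c * α - w * β) / r2, (c * β + w * α) / r2, ?_, ?_⟩
  · have : ((c * α - w * β) / r2) ^ 2 + ((c * β + w * α) / r2) ^ 2
        = (c ^ 2 + w ^ 2) * (α ^ 2 + β ^ 2) / r2 ^ 2 := by
      field_simp
      ring
    rw [this, hw2, ← hr2]
    field_simp
    ring
  · have : α * ((c * α - w * β) / r2) + β * ((c * β + w * α) / r2)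
        = c * (α ^ 2 + β ^ 2) / r2 := by
      field_simp
      ring
    rw [this, ← hr2]
    field_simp

theorem exists_gadget_aux {a b : E} (ha : ‖a‖ = 1) (hb : ‖b‖ = 1) (hab : inner ℝ a b = 0)
    {T : ℝ} (hT : T < 3) : ∀ (n : ℕ) (α β : ℝ), 1 ≤ α ^ 2 + β ^ 2 →
    1 ≤ (α ^ 2 + β ^ 2 - (T - 2)) * 2 ^ n →
    ∃ G : List E, (∀ v ∈ G, ‖v‖ ≤ 1 ∧ v ∈ Submodule.span ℝ {a, b}) ∧
      Forced T (α • a + β • b) G := by
  intro n
  induction n with
  | zero =>
    intro α β h1 hx
    obtain ⟨α', β', hu, hi⟩ := exists_unit_inner α β 0 h1 le_rfl (by norm_num)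
    refine ⟨[α' • a + β' • b], ?_, ?_⟩
    · intro v hv
      rw [List.mem_singleton] at hv
      subst hv
      refine ⟨?_, Submodule.mem_span_pair.mpr ⟨α', β', rfl⟩⟩
      have := norm_sq_comb ha hb hab α' β'
      rw [hu] at this
      nlinarith [norm_nonneg (α' • a + β' • b)]
    · have hn := norm_sq_comb ha hb hab α β
      have hn' := norm_sq_comb ha hb hab α' β'
      have hin := inner_comb ha hb hab α β α' β'
      refine Or.inr ⟨?_, ?_⟩
      · show T ≤ ‖α • a + β • b + (α' • a + β' • b)‖ ^ 2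
        rw [norm_add_sq_real, hn, hn', hin, hi, hu]
        simp at hx
        linarith
      · show T ≤ ‖α • a + β • b - (α' • a + β' • b)‖ ^ 2
        rw [norm_sub_sq_real, hn, hn', hin, hi, hu]
        simp at hx
        linarith
  | succ n ih =>
    intro α β h1 hx
    have hn := norm_sq_comb ha hb hab α β
    by_cases hbig : T - 1 ≤ α ^ 2 + β ^ 2
    · obtain ⟨α', β', hu, hi⟩ := exists_unit_inner α β 0 h1 le_rfl (by norm_num)
      refine ⟨[α' • a + β' • b], ?_, ?_⟩
      · intro v hv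
        rw [List.mem_singleton] at hv
        subst hv
        refine ⟨?_, Submodule.mem_span_pair.mpr ⟨α', β', rfl⟩⟩
        have := norm_sq_comb ha hb hab α' β'
        rw [hu] at this
        nlinarith [norm_nonneg (α' • a + β' • b)]
      · have hn' := norm_sq_comb ha hb hab α' β'
        have hin := inner_comb ha hb hab α β α' β'
        refine Or.inr ⟨?_, ?_⟩
        · show T ≤ ‖α • a + β • b + (α' • a + β' • b)‖ ^ 2
          rw [norm_add_sq_real, hn, hn', hin, hi, hu]
          linarith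
        · show T ≤ ‖α • a + β • b - (α' • a + β' • b)‖ ^ 2
          rw [norm_sub_sq_real, hn, hn', hin, hi, hu]
          linarith
    · replace hbig := not_le.mp hbig
      set c := (T - 1 - (α ^ 2 + β ^ 2)) / 2 with hc
      have hc0 : 0 ≤ c := by rw [hc]; linarith
      have hc1 : c ≤ 1 / 2 := by rw [hc]; linarith
      obtain ⟨α', β', hu, hi⟩ := exists_unit_inner α β c h1 hc0 hc1
      have hxpos : 0 < α ^ 2 + β ^ 2 - (T - 2) := by
        by_contra hneg
        replace hneg := not_lt.mp hneg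
        have : (α ^ 2 + β ^ 2 - (T - 2)) * 2 ^ (n + 1) ≤ 0 :=
          mul_nonpos_of_nonpos_of_nonneg hneg (by positivity)
        linarith
      have hsq : (α - α') ^ 2 + (β - β') ^ 2 = 2 * (α ^ 2 + β ^ 2) + 2 - T := by
        have : (α - α') ^ 2 + (β - β') ^ 2
            = (α ^ 2 + β ^ 2) - 2 * (α * α' + β * β') + (α' ^ 2 + β' ^ 2) := by ring
        rw [this, hi, hu, hc]
        ring
      obtain ⟨G, hG, hF⟩ := ih (α - α') (β - β') (by rw [hsq]; linarith) (by
        rw [hsq]
        have : (2 * (α ^ 2 + β ^ 2) + 2 - T - (T - 2)) * 2 ^ n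
            = (α ^ 2 + β ^ 2 - (T - 2)) * 2 ^ (n + 1) := by ring
        rw [this]
        exact hx)
      refine ⟨(α' • a + β' • b) :: G, ?_, ?_⟩
      · intro v hv
        rcases List.mem_cons.mp hv with hv | hv
        · subst hv
          refine ⟨?_, Submodule.mem_span_pair.mpr ⟨α', β', rfl⟩⟩
          have := norm_sq_comb ha hb hab α' β'
          rw [hu] at this
          nlinarith [norm_nonneg (α' • a + β' • b)]
        · exact hG v hv
      · have hn' := norm_sq_comb ha hb hab α' β'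
        have hin := inner_comb ha hb hab α β α' β'
        refine Or.inr ⟨?_, ?_⟩
        · apply forced_of_le
          rw [norm_add_sq_real, hn, hn', hin, hi, hu, hc]
          linarith
        · have e : α • a + β • b - (α' • a + β' • b) = (α - α') • a + (β - β') • b := by
            rw [sub_smul, sub_smul]; abel
          rw [e]
          exact hF

theorem exists_gadget {a b : E} (ha : ‖a‖ = 1) (hb : ‖b‖ = 1) (hab : inner ℝ a b = 0)
    {T : ℝ} (hT : T < 3) :
    ∃ G : List E, (∀ v ∈ G, ‖v‖ ≤ 1 ∧ v ∈ Submodule.span ℝ {a, b}) ∧ Forced T a G := by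
  obtain ⟨n, hn⟩ : ∃ n : ℕ, 1 / (3 - T) < 2 ^ n :=
    pow_unbounded_of_one_lt _ (by norm_num)
  have hpos : 0 < 3 - T := by linarith
  obtain ⟨G, hG, hF⟩ := exists_gadget_aux ha hb hab hT n 1 0 (by norm_num) (by
    have : (1:ℝ) ^ 2 + 0 ^ 2 - (T - 2) = 3 - T := by ring
    rw [this]
    have := (div_lt_iff₀ hpos).mp hn
    linarith)
  refine ⟨G, hG, ?_⟩
  simpa using hF

end Vale.Agent.Lib.P262
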