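import Mathlib
import Vale.Agent.Lib.P262.Forced
import Vale.Agent.Lib.P262.Gadget

namespace Vale.Agent.Lib.P262

open Finset

theorem sum_fin_filter_lt {M : Type*} [AddCommMonoid M] (f : ℕ → M) (N k : ℕ) (hk : k ≤ N) :
    ∑ i ∈ Finset.univ.filter (fun i : Fin N => (i : ℕ) < k), f i = ∑ i ∈ range k, f i := by
  rw [Finset.sum_filter, Fin.sum_univ_eq_sum_range (fun i => if i < k then f i else 0) N,
    ← Finset.sum_filter]
  congr 1
  ext i
  simp only [Finset.mem_filter, Finset.mem_range]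
  omega

/-- If every finite sequence in the unit ball of `ℝ^d` (`d ≥ 2`) can be signed so that all
initial signed sums have norm at most `C`, then `C ≥ √(d+1)`. -/
theorem sigma_lower (d : ℕ) (hd : 2 ≤ d) (C : ℝ)
    (hC : ∀ (N : ℕ) (v : Fin N → EuclideanSpace ℝ (Fin d)), (∀ i, ‖v i‖ ≤ 1) →
      ∃ ε : Fin N → ℝ, (∀ i, ε i = 1 ∨ ε i = -1) ∧
        ∀ k : ℕ, k ≤ N →
          ‖∑ i ∈ Finset.univ.filter (fun i : Fin N => (i : ℕ) < k), ε i • v i‖ ≤ C) :
    Real.sqrt (d + 1) ≤ C := by
  by_contra hlt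
  replace hlt := not_le.mp hlt
  have hC0 : 0 ≤ C := by
    obtain ⟨ε, -, h⟩ := hC 0 (fun i => i.elim0) (fun i => i.elim0)
    have := h 0 le_rfl
    simpa using this
  have hC2 : C ^ 2 < (d : ℝ) + 1 := (Real.lt_sqrt hC0).mp hlt
  obtain ⟨m, rfl⟩ : ∃ m, d = 2 + m := Nat.exists_eq_add_of_le hd
  set T : ℝ := (C ^ 2 + ((2 + m : ℕ) + 1)) / 2 with hTdef
  have hT1 : C ^ 2 < T := by rw [hTdef]; linarith
  have hT2 : T < ((2 + m : ℕ) : ℝ) + 1 := by rw [hTdef]; linarith
  let B := EuclideanSpace.basisFun (Fin (2 + m)) ℝ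
  have hB := orthonormal_iff_ite.mp B.orthonormal
  have hBn : ∀ i, ‖B i‖ = 1 := B.orthonormal.1
  set a := B (Fin.castAdd m 0) with ha_def
  set b := B (Fin.castAdd m 1) with hb_def
  have hab : inner ℝ a b = 0 := by
    rw [ha_def, hb_def, hB]
    simp
  obtain ⟨G, hG, hF⟩ := exists_gadget (hBn _) (hBn _) hab (T := T - m)
    (by push_cast at hT2; linarith)
  set L₀ : List (EuclideanSpace ℝ (Fin (2 + m))) :=
    (List.finRange m).map (fun j => B (Fin.natAdd 2 j)) with hL₀
  have hne : ∀ (j : Fin m) (i : Fin 2), Fin.natAdd 2 j ≠ Fin.castAdd m i := by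
    intro j i h
    have := congrArg Fin.val h
    simp at this
    omega
  have horth_ab : ∀ (j : Fin m) (v : EuclideanSpace ℝ (Fin (2 + m))),
      v ∈ Submodule.span ℝ {a, b} → inner ℝ (B (Fin.natAdd 2 j)) v = 0 := by
    intro j v hv
    obtain ⟨x, y, rfl⟩ := Submodule.mem_span_pair.mp hv
    rw [inner_add_right, inner_smul_right, inner_smul_right, ha_def, hb_def, hB, hB,
      if_neg (hne j 0), if_neg (hne j 1)]
    simp
  have hQ : Q (T - m) (a :: G) := by
    apply Q_of_forced
    refine Or.inr ⟨by simpa using hF, ?_⟩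
    have := forced_neg G a hF
    simpa using this
  have hQ' : Q (T - m + L₀.length) (L₀ ++ a :: G) := by
    apply Q_append hQ
    · intro w hw
      rw [hL₀, List.mem_map] at hw
      obtain ⟨j, -, rfl⟩ := hw
      exact hBn _
    · rw [hL₀, List.pairwise_map]
      have hnd := List.nodup_finRange m
      refine List.Pairwise.imp ?_ hnd
      intro j j' hjj
      rw [hB, if_neg]
      intro h
      exact hjj (Fin.natAdd_injective _ _ h)
    · intro w hw v hv
      rw [hL₀, List.mem_map] at hw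
      obtain ⟨j, -, rfl⟩ := hw
      rcases List.mem_cons.mp hv with hv | hv
      · subst hv
        rw [ha_def, hB, if_neg (hne j 0)]
      · exact horth_ab j v (hG v hv).2
  have hlen : L₀.length = m := by simp [hL₀]
  set L := L₀ ++ a :: G with hL
  have hF0 : Forced T 0 L := by
    have := hQ' 0 (by simp)
    rw [hlen] at this
    simpa using this
  have hLnorm : ∀ v ∈ L, ‖v‖ ≤ 1 := by
    intro v hv
    rw [hL] at hv
    rcases List.mem_append.mp hv with hv | hv
    · rw [hL₀, List.mem_map] at hv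
      obtain ⟨j, -, rfl⟩ := hv
      exact (hBn _).le
    · rcases List.mem_cons.mp hv with hv | hv
      · subst hv
        exact (hBn _).le
      · exact (hG v hv).1
  obtain ⟨ε', hε', hk⟩ := hC L.length (fun i => L.get i)
    (fun i => hLnorm _ (List.get_mem L i))
  let ε : ℕ → ℝ := fun i => if h : i < L.length then ε' ⟨i, h⟩ else 1
  have hε : ∀ i, ε i = 1 ∨ ε i = -1 := by
    intro i
    by_cases h : i < L.length
    · simp only [ε, dif_pos h]
      exact hε' _
    · simp only [ε, dif_neg h]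
      exact Or.inl trivial
  obtain ⟨k, hkN, hTk⟩ := forced_spec L 0 hF0 ε hε
  have hsum : ∑ i ∈ Finset.univ.filter (fun i : Fin L.length => (i : ℕ) < k), ε' i • L.get i
      = ∑ i ∈ range k, ε i • L.getD i 0 := by
    rw [← sum_fin_filter_lt (fun i => ε i • L.getD i 0) L.length k hkN]
    apply Finset.sum_congr rfl
    intro i _
    have h1 : ε (i : ℕ) = ε' i := by
      simp only [ε, dif_pos i.2]
    have h2 : L.getD (i : ℕ) 0 = L.get i := by
      rw [List.getD_eq_getElem _ _ i.2]
      rfl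
    rw [h1, h2]
  have hbound := hk k hkN
  rw [hsum] at hbound
  rw [zero_add] at hTk
  have : ‖∑ i ∈ range k, ε i • L.getD i 0‖ ^ 2 ≤ C ^ 2 :=
    pow_le_pow_left₀ (norm_nonneg _) hbound 2
  linarith

end Vale.Agent.Lib.P262
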