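import Mathlib
import Vale.Agent.Lib.P262.Forced

namespace Vale.Agent.Lib.P262

open Finset

set_option linter.unusedSectionVars false

variable {E : Type*} [NormedAddCommGroup E] [InnerProductSpace ℝ E]

/-- squared Euclidean norm of an integer triple -/
def nsqZ (p : ℤ × ℤ × ℤ) : ℤ := p.1 * p.1 + p.2.1 * p.2.1 + p.2.2 * p.2.2

/-- integer version of `Forced`, evaluable by computation -/
def forcedZ (T : ℤ) : ℤ × ℤ × ℤ → List (ℤ × ℤ × ℤ) → Bool
  | s, [] => decide (T ≤ nsqZ s)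
  | s, v :: L => decide (T ≤ nsqZ s) ||
      (forcedZ T (s.1 + v.1, s.2.1 + v.2.1, s.2.2 + v.2.2) L &&
        forcedZ T (s.1 - v.1, s.2.1 - v.2.1, s.2.2 - v.2.2) L)

/-- the point of `E` with coordinates `p / D` in the frame `a, b, c` -/
noncomputable def toE (a b c : E) (D : ℝ) (p : ℤ × ℤ × ℤ) : E :=
  ((p.1 : ℝ) / D) • a + ((p.2.1 : ℝ) / D) • b + ((p.2.2 : ℝ) / D) • c

theorem norm_sq_comb3 {a b c : E} (ha : ‖a‖ = 1) (hb : ‖b‖ = 1) (hc : ‖c‖ = 1)
    (hab : inner ℝ a b = 0) (hac : inner ℝ a c = 0) (hbc : inner ℝ b c = 0) (x y z : ℝ) :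
    ‖x • a + y • b + z • c‖ ^ 2 = x ^ 2 + y ^ 2 + z ^ 2 := by
  have hba : inner ℝ b a = 0 := by rw [real_inner_comm]; exact hab
  have hca : inner ℝ c a = 0 := by rw [real_inner_comm]; exact hac
  have hcb : inner ℝ c b = 0 := by rw [real_inner_comm]; exact hbc
  rw [← real_inner_self_eq_norm_sq]
  simp only [inner_add_left, inner_add_right, inner_smul_left, inner_smul_right,
    real_inner_self_eq_norm_sq, ha, hb, hc, hab, hac, hbc, hba, hca, hcb]
  simp
  ring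

theorem norm_sq_toE {a b c : E} (ha : ‖a‖ = 1) (hb : ‖b‖ = 1) (hc : ‖c‖ = 1)
    (hab : inner ℝ a b = 0) (hac : inner ℝ a c = 0) (hbc : inner ℝ b c = 0)
    {D : ℝ} (hD : 0 < D) (p : ℤ × ℤ × ℤ) :
    ‖toE a b c D p‖ ^ 2 = (nsqZ p : ℝ) / D ^ 2 := by
  unfold toE
  rw [norm_sq_comb3 ha hb hc hab hac hbc]
  unfold nsqZ
  push_cast
  field_simp

theorem toE_add (a b c : E) (D : ℝ) (s v : ℤ × ℤ × ℤ) :
    toE a b c D (s.1 + v.1, s.2.1 + v.2.1, s.2.2 + v.2.2) = toE a b c D s + toE a b c D v := by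
  unfold toE
  push_cast
  simp only [add_div, add_smul]
  abel

theorem toE_sub (a b c : E) (D : ℝ) (s v : ℤ × ℤ × ℤ) :
    toE a b c D (s.1 - v.1, s.2.1 - v.2.1, s.2.2 - v.2.2) = toE a b c D s - toE a b c D v := by
  unfold toE
  push_cast
  simp only [sub_div, sub_smul]
  abel

theorem forced_of_forcedZ {a b c : E} (ha : ‖a‖ = 1) (hb : ‖b‖ = 1) (hc : ‖c‖ = 1)
    (hab : inner ℝ a b = 0) (hac : inner ℝ a c = 0) (hbc : inner ℝ b c = 0)
    {D : ℝ} (hD : 0 < D) (T : ℤ) : ∀ (L : List (ℤ × ℤ × ℤ)) (s : ℤ × ℤ × ℤ),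
    forcedZ T s L = true →
    Forced ((T : ℝ) / D ^ 2) (toE a b c D s) (L.map (toE a b c D)) := by
  have hD2 : (0:ℝ) < D ^ 2 := by positivity
  have key : ∀ s : ℤ × ℤ × ℤ, T ≤ nsqZ s → (T : ℝ) / D ^ 2 ≤ ‖toE a b c D s‖ ^ 2 := by
    intro s h
    rw [norm_sq_toE ha hb hc hab hac hbc hD]
    have : (T : ℝ) ≤ (nsqZ s : ℝ) := by exact_mod_cast h
    exact div_le_div_of_nonneg_right this hD2.le
  intro L
  induction L with
  | nil =>
    intro s h
    simp only [forcedZ, decide_eq_true_eq] at h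
    exact key s h
  | cons v L ih =>
    intro s h
    simp only [forcedZ, Bool.or_eq_true, Bool.and_eq_true, decide_eq_true_eq] at h
    rcases h with h | ⟨h1, h2⟩
    · exact Or.inl (key s h)
    · refine Or.inr ⟨?_, ?_⟩
      · have := ih _ h1
        rwa [toE_add] at this
      · have := ih _ h2
        rwa [toE_sub] at this

end Vale.Agent.Lib.P262
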