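import Mathlib
import Vale.Agent.Lib.P262.Forced
import Vale.Agent.Lib.P262.Main
import Vale.Agent.Lib.P262.Three

namespace Vale.Agent.Lib.P262

open Finset

/-- If `C` bounds the signed initial sums for every sequence and `L` is a sequence in the unit ball
forced up to `T` from the origin, then `T ≤ C ^ 2`. -/
theorem bound_of_forced (d : ℕ) (C : ℝ)
    (hC : ∀ (N : ℕ) (v : Fin N → EuclideanSpace ℝ (Fin d)), (∀ i, ‖v i‖ ≤ 1) →
      ∃ ε : Fin N → ℝ, (∀ i, ε i = 1 ∨ ε i = -1) ∧
        ∀ k : ℕ, k ≤ N →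
          ‖∑ i ∈ Finset.univ.filter (fun i : Fin N => (i : ℕ) < k), ε i • v i‖ ≤ C)
    (L : List (EuclideanSpace ℝ (Fin d))) (hLnorm : ∀ v ∈ L, ‖v‖ ≤ 1) (T : ℝ)
    (hF0 : Forced T 0 L) : 0 ≤ C ∧ T ≤ C ^ 2 := by
  have hC0 : 0 ≤ C := by
    obtain ⟨ε, -, h⟩ := hC 0 (fun i => i.elim0) (fun i => i.elim0)
    have := h 0 le_rfl
    simpa using this
  refine ⟨hC0, ?_⟩
  obtain ⟨ε', hε', hk⟩ := hC L.length (fun i => L.get i)
    (fun i => hLnorm _ (List.get_mem L i))
  let ε : ℕ → ℝ := fun i => if h : i < L.length then ε' ⟨i, h⟩ else 1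
  have hε : ∀ i, ε i = 1 ∨ ε i = -1 := by
    intro i
    by_cases h : i < L.length
    · simp only [ε, dif_pos h]
      exact hε' _
    · simp only [ε, dif_neg h]
      exact Or.inl trivial
  obtain ⟨k, hkN, hTk⟩ := forced_spec L 0 hF0 ε hε
  have hsum : ∑ i ∈ Finset.univ.filter (fun i : Fin L.length => (i : ℕ) < k), ε' i • L.get i
      = ∑ i ∈ range k, ε i • L.getD i 0 := by
    rw [← sum_fin_filter_lt (fun i => ε i • L.getD i 0) L.length k hkN]
    apply Finset.sum_congr rfl
    intro i _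
    have h1 : ε (i : ℕ) = ε' i := by
      simp only [ε, dif_pos i.2]
    have h2 : L.getD (i : ℕ) 0 = L.get i := by
      rw [List.getD_eq_getElem _ _ i.2]
      rfl
    rw [h1, h2]
  have hbound := hk k hkN
  rw [hsum] at hbound
  rw [zero_add] at hTk
  have : ‖∑ i ∈ range k, ε i • L.getD i 0‖ ^ 2 ≤ C ^ 2 :=
    pow_le_pow_left₀ (norm_nonneg _) hbound 2
  linarith

/-- A three-dimensional integer gadget (scaled by `D`) forced up to `T / D ^ 2` gives, in every
dimension `3 + m`, a sequence in the unit ball forced up to `T / D ^ 2 + m`. -/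
theorem exists_forced_of_gadget3 (m : ℕ) (G : List (ℤ × ℤ × ℤ)) (D : ℤ) (hD : 0 < D) (T : ℤ)
    (hball : G.all (fun v => decide (nsqZ v ≤ D * D)) = true)
    (hG : forcedZ T (0, 0, 0) G = true) :
    ∃ L : List (EuclideanSpace ℝ (Fin (3 + m))), (∀ v ∈ L, ‖v‖ ≤ 1) ∧
      Forced ((T : ℝ) / (D : ℝ) ^ 2 + m) 0 L := by
  have hDR : (0:ℝ) < (D : ℝ) := by exact_mod_cast hD
  let B := EuclideanSpace.basisFun (Fin (3 + m)) ℝ
  have hB := orthonormal_iff_ite.mp B.orthonormal
  have hBn : ∀ i, ‖B i‖ = 1 := B.orthonormal.1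
  set a := B (Fin.castAdd m 0) with ha_def
  set b := B (Fin.castAdd m 1) with hb_def
  set c := B (Fin.castAdd m 2) with hc_def
  have hab : inner ℝ a b = 0 := by
    rw [ha_def, hb_def, hB]; simp
  have hac : inner ℝ a c = 0 := by
    rw [ha_def, hc_def, hB]; simp
  have hbc : inner ℝ b c = 0 := by
    rw [hb_def, hc_def, hB]; simp
  set G' : List (EuclideanSpace ℝ (Fin (3 + m))) := G.map (toE a b c (D : ℝ)) with hG'
  have hF : Forced ((T : ℝ) / (D : ℝ) ^ 2) 0 G' := by
    have := forced_of_forcedZ (hBn _) (hBn _) (hBn _) hab hac hbc hDR T G (0, 0, 0) hG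
    have h0 : toE a b c (D : ℝ) (0, 0, 0) = 0 := by simp [toE]
    rwa [h0] at this
  set L₀ : List (EuclideanSpace ℝ (Fin (3 + m))) :=
    (List.finRange m).map (fun j => B (Fin.natAdd 3 j)) with hL₀
  have hne : ∀ (j : Fin m) (i : Fin 3), Fin.natAdd 3 j ≠ Fin.castAdd m i := by
    intro j i h
    have := congrArg Fin.val h
    simp at this
    omega
  have horth : ∀ (j : Fin m) (p : ℤ × ℤ × ℤ),
      inner ℝ (B (Fin.natAdd 3 j)) (toE a b c (D : ℝ) p) = 0 := by
    intro j p
    unfold toE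
    rw [inner_add_right, inner_add_right, inner_smul_right, inner_smul_right, inner_smul_right,
      ha_def, hb_def, hc_def, hB, hB, hB, if_neg (hne j 0), if_neg (hne j 1), if_neg (hne j 2)]
    simp
  have hQ : Q ((T : ℝ) / (D : ℝ) ^ 2) G' := Q_of_forced hF
  have hQ' : Q ((T : ℝ) / (D : ℝ) ^ 2 + L₀.length) (L₀ ++ G') := by
    apply Q_append hQ
    · intro w hw
      rw [hL₀, List.mem_map] at hw
      obtain ⟨j, -, rfl⟩ := hw
      exact hBn _
    · rw [hL₀, List.pairwise_map]
      have hnd := List.nodup_finRange m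
      refine List.Pairwise.imp ?_ hnd
      intro j j' hjj
      rw [hB, if_neg]
      intro h
      exact hjj (Fin.natAdd_injective _ _ h)
    · intro w hw v hv
      rw [hL₀, List.mem_map] at hw
      obtain ⟨j, -, rfl⟩ := hw
      rw [hG', List.mem_map] at hv
      obtain ⟨p, -, rfl⟩ := hv
      exact horth j p
  have hlen : L₀.length = m := by simp [hL₀]
  refine ⟨L₀ ++ G', ?_, ?_⟩
  · intro v hv
    rcases List.mem_append.mp hv with hv | hv
    · rw [hL₀, List.mem_map] at hv
      obtain ⟨j, -, rfl⟩ := hv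
      exact (hBn _).le
    · rw [hG', List.mem_map] at hv
      obtain ⟨p, hp, rfl⟩ := hv
      have hp' := List.all_eq_true.mp hball p hp
      simp only [decide_eq_true_eq] at hp'
      have hn := norm_sq_toE (hBn _) (hBn _) (hBn _) hab hac hbc hDR p
      have hle : (nsqZ p : ℝ) ≤ (D : ℝ) ^ 2 := by
        have : (nsqZ p : ℝ) ≤ ((D * D : ℤ) : ℝ) := by exact_mod_cast hp'
        push_cast at this
        nlinarith
      have h1 : ‖toE a b c (D : ℝ) p‖ ^ 2 ≤ 1 := by
        rw [hn]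
        rw [div_le_one (by positivity)]
        exact hle
      nlinarith [norm_nonneg (toE a b c (D : ℝ) p)]
  · have := hQ' 0 (by simp)
    rw [hlen] at this
    simpa using this

end Vale.Agent.Lib.P262
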