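import Mathlib
import Vale.Agent.Lib.P262.Main3

namespace Vale.Agent.Lib.P262

/-- An explicit sequence of 22 integer vectors; divided by `10^6` they lie in the unit ball of
`ℝ^3`, and every choice of signs has an initial signed sum of squared norm at least `439/100`. -/
def gadget3 : List (ℤ × ℤ × ℤ) :=
  [(315955, -542788, 778173),
   (730325, 164750, -662934),
   (176064, 940742, 289836),
   (-700464, -224360, 677504),
   (-761152, -111393, 638877),
   (-661771, -305407, 684649),
   (912535, 12255, -408814),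
   (-174657, -956079, 235386),
   (925340, 230339, -301147),
   (-897954, 375106, 230160),
   (746169, 657067, 106074),
   (-841570, -297600, 450770),
   (-832392, -295683, 468715),
   (849421, 300035, -433632),
   (814992, 288555, -499962),
   (979711, 125256, 144483),
   (-13413, -1979, -1134),
   (735170, 371005, 563945),
   (89774, 674798, 706051),
   (55342, -320708, -942883),
   (342673, 101154, -925471),
   (412843, -898899, 137410)]

theorem gadget3_forced : forcedZ 4390000000000 (0, 0, 0) gadget3 = true := by decide +kernel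

theorem gadget3_ball : gadget3.all (fun v => decide (nsqZ v ≤ 1000000 * 1000000)) = true := by
  decide +kernel

theorem sigma_lower3 (d : ℕ) (hd : 3 ≤ d) (C : ℝ)
    (hC : ∀ (N : ℕ) (v : Fin N → EuclideanSpace ℝ (Fin d)), (∀ i, ‖v i‖ ≤ 1) →
      ∃ ε : Fin N → ℝ, (∀ i, ε i = 1 ∨ ε i = -1) ∧
        ∀ k : ℕ, k ≤ N →
          ‖∑ i ∈ Finset.univ.filter (fun i : Fin N => (i : ℕ) < k), ε i • v i‖ ≤ C) :
    Real.sqrt (d + 139 / 100) ≤ C := by
  obtain ⟨m, rfl⟩ : ∃ m, d = 3 + m := Nat.exists_eq_add_of_le hd
  obtain ⟨L, hL, hF⟩ := exists_forced_of_gadget3 m gadget3 1000000 (by norm_num)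
    4390000000000 gadget3_ball gadget3_forced
  obtain ⟨hC0, hT⟩ := bound_of_forced (3 + m) C hC L hL _ hF
  have h : ((3 + m : ℕ) : ℝ) + 139 / 100 ≤ C ^ 2 := by
    push_cast at hT ⊢
    norm_num at hT ⊢
    linarith
  calc Real.sqrt (((3 + m : ℕ) : ℝ) + 139 / 100)
      ≤ Real.sqrt (C ^ 2) := Real.sqrt_le_sqrt h
    _ = C := Real.sqrt_sq hC0

end Vale.Agent.Lib.P262
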